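import Vale.Agent.P101.DropN.Hom.Path

/-!
P101: a closed algebra containing the model of Z(n+1,n+2) contains every field with the twisted
boundary conditions.
-/

namespace Vale.Agent.P101.DropN.Hom

open scoped Matrix Matrix.Norms.L2Operator Kronecker unitInterval
open Vale.Agent.P101.DimDrop (coord rootT rootS rootT_mul_self rootS_mul_self star_rootT star_rootS)

variable {n : ℕ}

lemma unit_sum {ι : Type*} [Fintype ι] (a b : Idx n) (c : ι → C(I, ℂ)) :
    unit a b (∑ i, c i) = ∑ i, unit a b (c i) := by
  classical
  induction (Finset.univ : Finset ι) using Finset.induction_on with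
  | empty => ext t : 1; simp
  | insert i S hi ih => rw [Finset.sum_insert hi, Finset.sum_insert hi, unit_add, ih]

lemma unit_zero (a b : Idx n) : unit a b 0 = 0 := by
  ext t : 1
  simp

lemma unit_sub (a b : Idx n) (c c' : C(I, ℂ)) : unit a b (c - c') = unit a b c - unit a b c' := by
  ext t i j
  simp [Matrix.single_apply]
  split_ifs <;> simp

lemma star_x_mul (p r : Fin (n + 1)) :
    star (xModel (n := n) p) * xModel r = ∑ q, unit (p, q) (r, q) (wgt q * wgt q) := by
  rw [star_xModel, xModel, Finset.sum_mul_sum]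
  simp [unit_mul_unit]

lemma one_eq_sum : (1 : C(I, Fib n)) = ∑ i : Idx n, unit i i 1 := by
  ext t : 1
  simp only [ContinuousMap.sum_apply, unit_apply, ContinuousMap.one_apply]
  rw [← Matrix.diagonal_one, ← Matrix.sum_single_eq_diagonal]

lemma defect_model : star (sModel (n := n)) * sModel = ∑ p, unit (p, 0) (p, 0) coord := by
  rw [star_sModel, sModel, Finset.sum_mul_sum]
  simp [unit_mul_unit, rootT_mul_self]

lemma model_sum : star (sModel (n := n)) * sModel = 1 - ∑ i, star (xModel i) * xModel i := by
  rw [defect_model, one_eq_sum, Fintype.sum_prod_type, ← Finset.sum_sub_distrib]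
  refine Finset.sum_congr rfl fun p _ => ?_
  rw [star_x_mul, ← Finset.sum_sub_distrib, Finset.sum_eq_single 0]
  · rw [wgt, if_pos rfl, rootS_mul_self, ← unit_sub, sub_sub_cancel]
  · intro q _ hq
    simp [wgt, hq]
  · simp

lemma x_one_col (p : Fin (n + 1)) :
    star (xModel (n := n) p) * sModel =
      ∑ a : Fin (n + 1), unit (p, a.succ) (a, 0) rootT := by
  rw [star_xModel, sModel, Finset.sum_mul_sum, Finset.sum_comm]
  refine Finset.sum_congr rfl fun a _ => ?_
  rw [Finset.sum_eq_single a.succ (fun q _ hq => by simp [unit_mul_unit, hq]) (by simp)]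
  simp [unit_mul_unit, wgt, Fin.succ_ne_zero]

lemma scal_coord :
    scal coord = star (sModel (n := n)) * sModel +
      ∑ i, star (xModel i) * sModel * star (star (xModel i) * sModel) := by
  have e : ∀ i : Fin (n + 1), star (xModel (n := n) i) * sModel * star (star (xModel i) * sModel) =
      ∑ a : Fin (n + 1), unit (i, a.succ) (i, a.succ) coord := fun i => by
    rw [x_one_col i, star_sum, Finset.sum_mul_sum]
    simp [star_unit, star_rootT, unit_mul_unit, rootT_mul_self]
  rw [defect_model, ← Finset.sum_add_distrib, ← mul_one (scal coord), one_eq_sum, Finset.mul_sum,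
    Fintype.sum_prod_type]
  refine Finset.sum_congr rfl fun p _ => ?_
  rw [e, Fin.sum_univ_succ]
  simp [scal_mul_unit]

/-- Everything with the twisted boundary conditions lies in a closed algebra containing the
model. -/
theorem mem_of_twisted (S : StarSubalgebra ℂ C(I, Fib n)) (hS : IsClosed (S : Set C(I, Fib n)))
    (hx : ∀ i, xModel i ∈ S) (hs : sModel ∈ S) (g : C(I, Fib n))
    (a : Matrix (Fin (n + 1)) (Fin (n + 1)) ℂ) (b : Matrix (Fin (n + 2)) (Fin (n + 2)) ℂ)
    (h0 : g 0 = a ⊗ₖ (1 : Matrix (Fin (n + 2)) (Fin (n + 2)) ℂ))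
    (h1 : g 1 = ((1 : Matrix (Fin (n + 1)) (Fin (n + 1)) ℂ) ⊗ₖ b).submatrix flipIdx flipIdx) :
    g ∈ S := by
  set D : C(I, Fib n) := star sModel * sModel with hD
  have hd : D ∈ S := mul_mem (star_mem hs) hs
  have hcoord : scal coord ∈ S := by
    rw [scal_coord]
    exact add_mem hd (sum_mem fun i _ => mul_mem (mul_mem (star_mem (hx i)) hs)
      (star_mem (mul_mem (star_mem (hx i)) hs)))
  have hscal : ∀ c, scal c ∈ S := by
    intro c
    have htop : (S.comap scal).topologicalClosure = ⊤ :=
      ContinuousMap.starSubalgebra_topologicalClosure_eq_top_of_separatesPoints _ (by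
        intro x z hxz
        refine ⟨_, ⟨coord, hcoord, rfl⟩, ?_⟩
        simpa [coord, Subtype.ext_iff] using hxz)
    have hle : (S.comap scal).topologicalClosure ≤ S.comap scal :=
      StarSubalgebra.topologicalClosure_minimal le_rfl (hS.preimage scal_continuous)
    exact hle (htop ▸ StarSubalgebra.mem_top)
  -- interior columns
  let K : C(I, ℂ) := (1 - coord) * coord
  have hne : ∀ t : I, t ≠ 0 → t ≠ 1 → K t ≠ 0 ∧ rootT t ≠ 0 := by
    intro t ht0 ht1
    have h0' : (0 : ℝ) < t := lt_of_le_of_ne t.2.1 (fun h => ht0 (Subtype.ext h.symm))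
    have h1' : (t : ℝ) < 1 := lt_of_le_of_ne t.2.2 (fun h => ht1 (Subtype.ext h))
    have h3 : Real.sqrt (t : ℝ) ≠ 0 := (Real.sqrt_pos.2 h0').ne'
    refine ⟨?_, by simpa [rootT] using h3⟩
    simp only [K, ContinuousMap.mul_apply, ContinuousMap.sub_apply, ContinuousMap.one_apply, coord,
      ContinuousMap.coe_mk]
    exact mul_ne_zero (by exact_mod_cast (sub_ne_zero.2 h1'.ne')) (by exact_mod_cast h0'.ne')
  have hbase : ∀ p, unit (p, 0) (0, 0) K ∈ S := by
    intro p
    have e : star (xModel p) * xModel 0 * D = unit (p, 0) (0, 0) K := by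
      rw [hD, defect_model, star_x_mul, Finset.sum_mul_sum]
      rw [Finset.sum_eq_single 0, Finset.sum_eq_single 0]
      · simp [unit_mul_unit, wgt, rootS_mul_self, K]
      · intro r _ hr; simp [unit_mul_unit, Ne.symm hr]
      · simp
      · intro q _ hq
        exact Finset.sum_eq_zero fun r _ => by simp [unit_mul_unit, hq]
      · simp
    rw [← e]
    exact mul_mem (mul_mem (star_mem (hx p)) (hx 0)) hd
  have hX : ∀ i, ∃ c, unit i (0, 0) c ∈ S ∧ ∀ t : I, t ≠ 0 → t ≠ 1 → c t ≠ 0 := by
    rintro ⟨p, q⟩
    cases q using Fin.cases with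
    | zero => exact ⟨K, hbase p, fun t a b => (hne t a b).1⟩
    | succ k =>
      refine ⟨rootT * K, ?_, fun t a b => by
        simpa using mul_ne_zero (hne t a b).2 (hne t a b).1⟩
      have e : star (xModel p) * sModel * unit (k, 0) (0, 0) K =
          unit (p, k.succ) (0, 0) (rootT * K) := by
        rw [x_one_col p, Finset.sum_mul, Finset.sum_eq_single k]
        · simp [unit_mul_unit]
        · intro r _ hr; simp [unit_mul_unit, hr]
        · simp
      rw [← e]
      exact mul_mem (mul_mem (star_mem (hx p)) hs) (hbase k)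
  have hint : ∀ i j h, h 0 = 0 → h 1 = 0 → unit i j h ∈ S := by
    intro i j h hh0 hh1
    let J : Ideal C(I, ℂ) :=
      { carrier := {h | unit i j h ∈ S}
        add_mem' := fun {x z} hx' hz => by
          show unit i j (x + z) ∈ S
          rw [unit_add]
          exact add_mem hx' hz
        zero_mem' := by
          show unit i j 0 ∈ S
          rw [unit_zero]
          exact zero_mem S
        smul_mem' := fun c x hx' => by
          show unit i j (c * x) ∈ S
          rw [← scal_mul_unit]
          exact mul_mem (hscal c) hx' }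
    have hJ : IsClosed (J : Set C(I, ℂ)) := by
      refine hS.preimage ?_
      have e : unit i j = ContinuousMap.comp (⟨Matrix.single i j, by
          refine continuous_matrix fun k l => ?_
          by_cases hkl : i = k ∧ j = l
          · simp only [Matrix.single_apply, if_pos hkl]; fun_prop
          · simp only [Matrix.single_apply, if_neg hkl]; fun_prop⟩ : C(ℂ, Fib n)) := rfl
      rw [e]
      exact ContinuousMap.continuous_postcomp _
    have hmem : h ∈ ContinuousMap.idealOfSet ℂ (ContinuousMap.setOfIdeal J) := by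
      rw [ContinuousMap.mem_idealOfSet]
      intro t ht
      obtain ⟨c, hc, hcne⟩ := hX i
      obtain ⟨c', hc', hcne'⟩ := hX j
      have hw : c * star c' ∈ J := by
        show unit i j (c * star c') ∈ S
        have := mul_mem hc (star_mem hc')
        rwa [star_unit, unit_mul_unit, if_pos rfl] at this
      by_contra hne'
      have h0' : t ≠ 0 := fun e => hne' (e ▸ hh0)
      have h1' : t ≠ 1 := fun e => hne' (e ▸ hh1)
      exact ht (ContinuousMap.mem_setOfIdeal.2 ⟨_, hw, by
        simp [hcne t h0' h1', hcne' t h0' h1']⟩)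
    rw [ContinuousMap.idealOfSet_ofIdeal_eq_closure, ← SetLike.mem_coe, Ideal.coe_closure,
      hJ.closure_eq] at hmem
    exact hmem
  have hsmul : ∀ (r : ℂ) {x : C(I, Fib n)}, x ∈ S → r • x ∈ S :=
    fun r _ hx => SMulMemClass.smul_mem r hx
  -- the endpoints
  let V : Fin (n + 2) → C(I, Fib n) := Fin.cases D (fun i => star (xModel i) * sModel * D)
  have hV : ∀ q, V q ∈ S := by
    intro q
    cases q using Fin.cases with
    | zero => exact hd
    | succ i => exact mul_mem (mul_mem (star_mem (hx i)) hs) hd
  have hV1 : ∀ q, V q 1 = ∑ p : Fin (n + 1), Matrix.single (flipIdx (p, q)) (p, 0) (1 : ℂ) := by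
    intro q
    have hc : coord 1 = 1 := by simp [coord]
    have hD1 : D 1 = ∑ p : Fin (n + 1), Matrix.single ((p, 0) : Idx n) (p, 0) (1 : ℂ) := by
      rw [hD, defect_model]
      simp [hc]
    cases q using Fin.cases with
    | zero => simpa [V, flipIdx, flipFun] using hD1
    | succ i =>
      simp only [V, Fin.cases_succ]
      rw [x_one_col i, ContinuousMap.mul_apply, hD1]
      simp only [ContinuousMap.sum_apply, unit_apply, Finset.sum_mul_sum]
      refine Finset.sum_congr rfl fun p _ => ?_
      rw [Finset.sum_eq_single p]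
      · simp [rootT, flipIdx, flipFun]
      · intro r _ hr
        rw [Matrix.single_mul_single_of_ne]
        simp [Ne.symm hr]
      · simp
  have hVV : ∀ q r, (V q * star (V r)) 1 =
      ∑ p : Fin (n + 1), Matrix.single (flipIdx (p, q)) (flipIdx (p, r)) (1 : ℂ) := by
    intro q r
    rw [ContinuousMap.mul_apply, ContinuousMap.star_apply, hV1, hV1, star_sum, Finset.sum_mul_sum]
    refine Finset.sum_congr rfl fun p _ => ?_
    rw [Finset.sum_eq_single p]
    · simp [Matrix.star_eq_conjTranspose, Matrix.conjTranspose_single]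
    · intro p' _ hp'
      simp [Matrix.star_eq_conjTranspose, Matrix.conjTranspose_single, Ne.symm hp']
    · simp
  have hW0 : ∀ p r, (star (xModel p) * xModel r : C(I, Fib n)) 0 =
      ∑ q : Fin (n + 2), Matrix.single ((p, q) : Idx n) (r, q) (1 : ℂ) := by
    intro p r
    rw [star_x_mul]
    simp only [ContinuousMap.sum_apply, unit_apply, ContinuousMap.mul_apply]
    refine Finset.sum_congr rfl fun q _ => ?_
    by_cases hq : q = 0 <;> simp [wgt, hq, rootS]
  let L : C(I, Fib n) := scal coord * (∑ q, ∑ r, b q r • (V q * star (V r))) +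
    scal (1 - coord) * (∑ p, ∑ r, a p r • (star (xModel p) * xModel r))
  have hL : L ∈ S := by
    refine add_mem (mul_mem (hscal _) ?_) (mul_mem (hscal _) ?_)
    · exact sum_mem fun q _ => sum_mem fun r _ => hsmul _ (mul_mem (hV q) (star_mem (hV r)))
    · exact sum_mem fun p _ => sum_mem fun r _ => hsmul _ (mul_mem (star_mem (hx p)) (hx r))
  have hL1 : L 1 = g 1 := by
    simp only [L, ContinuousMap.add_apply, ContinuousMap.mul_apply, ContinuousMap.sum_apply,
      ContinuousMap.smul_apply, scal_apply, h1]
    simp only [← ContinuousMap.mul_apply, hVV]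
    simp only [ContinuousMap.sub_apply, ContinuousMap.one_apply, coord, ContinuousMap.coe_mk,
      Set.Icc.coe_one, Complex.ofReal_one, map_one, one_mul, sub_self, map_zero, zero_mul,
      add_zero]
    ext i j
    obtain ⟨⟨i₁, i₂⟩, rfl⟩ := (flipIdx (n := n)).surjective i
    obtain ⟨⟨j₁, j₂⟩, rfl⟩ := (flipIdx (n := n)).surjective j
    simp [Matrix.sum_apply, Matrix.single_apply, ite_and, Matrix.one_apply]
  have hL0 : L 0 = g 0 := by
    simp only [L, ContinuousMap.add_apply, ContinuousMap.mul_apply, ContinuousMap.sum_apply,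
      ContinuousMap.smul_apply, scal_apply, h0]
    simp only [← ContinuousMap.mul_apply, hW0]
    simp only [ContinuousMap.sub_apply, ContinuousMap.one_apply, coord, ContinuousMap.coe_mk,
      Set.Icc.coe_zero, Complex.ofReal_zero, map_one, one_mul, sub_zero, map_zero, zero_mul,
      zero_add]
    ext ⟨i₁, i₂⟩ ⟨j₁, j₂⟩
    simp [Matrix.sum_apply, Matrix.single_apply, ite_and, Matrix.one_apply]
  have hdiff : g - L = ∑ i, ∑ j, unit i j (entry i j (g - L)) := by
    ext t : 1
    simp only [ContinuousMap.sum_apply, unit_apply, entry_apply]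
    exact Matrix.matrix_eq_sum_single _
  rw [← sub_add_cancel g L, hdiff]
  refine add_mem (sum_mem fun i _ => sum_mem fun j _ => hint i j _ ?_ ?_) hL
  · simp [hL0]
  · simp [hL1]

end Vale.Agent.P101.DropN.Hom
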