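import Vale.Agent.P101.DropN.Hom.Model

/-!
P101: the closed algebra generated by the pairs (model row, row) and (model carrier, carrier)
projects injectively to the model.
-/

namespace Vale.Agent.P101.DropN.Hom

open scoped Matrix Matrix.Norms.L2Operator unitInterval
open Vale.Agent.P101.DimDrop (coord rootT rootS rootT_mul_self rootS_mul_self star_rootT star_rootS)

universe u

variable {F : Type u} [CStarAlgebra F] {n : ℕ} {x : Fin (n + 1) → F} {s : F}

/-- The generators of the graph algebra. -/
noncomputable def gens (x : Fin (n + 1) → F) (s : F) : Set (C(I, Fib n) × F) :=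
  Set.range (fun i => (xModel i, x i)) ∪ {(sModel, s)}

/-- The graph algebra. -/
noncomputable def graph (x : Fin (n + 1) → F) (s : F) : StarSubalgebra ℂ (C(I, Fib n) × F) :=
  (StarAlgebra.adjoin ℂ (gens x s)).topologicalClosure

theorem gens_subset : gens x s ⊆ graph x s :=
  (StarAlgebra.subset_adjoin ℂ _).trans (StarSubalgebra.le_topologicalClosure _)

theorem gens_cases {g : C(I, Fib n) × F} (hg : g ∈ gens x s ∪ star (gens x s)) :
    (∃ i, g = (xModel i, x i) ∨ g = (star (xModel i), star (x i))) ∨
      g = (sModel, s) ∨ g = (star sModel, star s) := by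
  rcases hg with (⟨i, hi⟩ | hg) | hg
  · exact Or.inl ⟨i, Or.inl hi.symm⟩
  · exact Or.inr (Or.inl hg)
  · have hg2 : star g ∈ gens x s := hg
    rcases hg2 with ⟨i, hi⟩ | hg2
    · exact Or.inl ⟨i, Or.inr (by rw [← star_star g, ← hi]; rfl)⟩
    · refine Or.inr (Or.inr ?_)
      rw [← star_star g, Set.mem_singleton_iff.1 hg2]
      rfl

section Intertwine

variable (θ : C(I, ℂ) →⋆ₐ[ℂ] F) (u : Idx n → F)

/-- If a closed set `N`, stable under right multiplication and under left multiplication by the
algebra, has the intertwining property on generators, then it has it on the closed algebra. -/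
theorem intertwine {N : Submodule ℂ F} (hN : IsClosed (N : Set F))
    (hR : ∀ a ∈ N, ∀ z, a * z ∈ N)
    (hL : ∀ g ∈ StarAlgebra.adjoin ℂ (gens x s), ∀ a ∈ N, g.2 * a ∈ N)
    (hθ : Continuous θ)
    (hgen : ∀ g ∈ gens x s ∪ star (gens x s), ∀ j, g.2 * u j - column θ u g.1 j ∈ N)
    {g : C(I, Fib n) × F} (hg : g ∈ graph x s) (j : Idx n) :
    g.2 * u j - column θ u g.1 j ∈ N := by
  let P : C(I, Fib n) × F → Prop := fun g => ∀ j, g.2 * u j - column θ u g.1 j ∈ N
  have hclosed : IsClosed {g | P g} := by
    simp only [P, Set.ofPred_forall]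
    refine isClosed_iInter fun j => hN.preimage ?_
    refine (continuous_snd.mul continuous_const).sub ?_
    unfold column
    exact continuous_finsetSum _ fun i _ =>
      continuous_const.mul (hθ.comp ((entry_continuous i j).comp continuous_fst))
  have hmem : ∀ g ∈ Algebra.adjoin ℂ (gens x s ∪ star (gens x s)), P g := by
    intro g hg
    induction hg using Algebra.adjoin_induction with
    | mem a ha => exact hgen a ha
    | algebraMap r =>
      intro j
      have h1 : column θ u (algebraMap ℂ (C(I, Fib n) × F) r).1 j = u j * algebraMap ℂ F r := by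
        simp only [column, Prod.algebraMap_apply, entry_algebraMap]
        rw [Finset.sum_eq_single j]
        · simp [AlgHomClass.commutes]
        · intro i _ hi
          simp [hi]
        · simp
      rw [h1, Prod.algebraMap_apply, Algebra.commutes, sub_self]
      exact N.zero_mem
    | add a z _ _ ha hz =>
      intro j
      rw [Prod.fst_add, Prod.snd_add, column_add, add_mul, add_sub_add_comm]
      exact N.add_mem (ha j) (hz j)
    | mul a z ha' hz' ha hz =>
      intro j
      have haA : a ∈ StarAlgebra.adjoin ℂ (gens x s) := by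
        rw [← StarSubalgebra.mem_toSubalgebra, StarAlgebra.adjoin_toSubalgebra]
        exact ha'
      have e : (a * z).2 * u j - column θ u (a * z).1 j =
          a.2 * (z.2 * u j - column θ u z.1 j) +
            ∑ i, (a.2 * u i - column θ u a.1 i) * θ (entry i j z.1) := by
        simp only [Prod.fst_mul, Prod.snd_mul, column, entry_mul, map_sum, map_mul, mul_sub,
          sub_mul, Finset.sum_sub_distrib, Finset.mul_sum, Finset.sum_mul, mul_assoc]
        rw [Finset.sum_comm (γ := Idx n)]
        abel
      rw [e]
      exact N.add_mem (hL a haA _ (hz j)) (N.sum_mem fun i _ => hR _ (ha i) _)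
  refine closure_minimal (fun a ha => hmem a ?_) hclosed hg j
  rwa [← StarAlgebra.adjoin_toSubalgebra, StarSubalgebra.mem_toSubalgebra]

theorem column_xModel (i : Fin (n + 1)) (p : Fin (n + 1)) (q : Fin (n + 2)) :
    column θ u (xModel i) (p, q) = if p = i then u (0, q) * θ (wgt q) else 0 := by
  rw [xModel, column_sum]
  split_ifs with hp
  · subst hp
    rw [Finset.sum_eq_single q (fun b _ hb => by simp [column_unit, hb]) (by simp)]
    simp [column_unit]
  · exact Finset.sum_eq_zero fun b _ => by simp [column_unit, Ne.symm hp]

theorem column_star_xModel (i : Fin (n + 1)) (p : Fin (n + 1)) (q : Fin (n + 2)) :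
    column θ u (star (xModel i)) (p, q) = if p = 0 then u (i, q) * θ (wgt q) else 0 := by
  rw [star_xModel, column_sum]
  split_ifs with hp
  · subst hp
    rw [Finset.sum_eq_single q (fun b _ hb => by simp [column_unit, hb]) (by simp)]
    simp [column_unit]
  · exact Finset.sum_eq_zero fun b _ => by simp [column_unit, Ne.symm hp]

theorem column_sModel (p : Fin (n + 1)) (q : Fin (n + 2)) :
    column θ u sModel (p, q) = if q = 0 then u (0, p.succ) * θ rootT else 0 := by
  rw [sModel, column_sum]
  split_ifs with hq
  · subst hq
    rw [Finset.sum_eq_single p (fun b _ hb => by simp [column_unit, hb]) (by simp)]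
    simp [column_unit]
  · exact Finset.sum_eq_zero fun b _ => by simp [column_unit, Ne.symm hq]

theorem column_star_sModel (p : Fin (n + 1)) (q : Fin (n + 2)) :
    column θ u (star sModel) (p, q) =
      if p = 0 then (Fin.cases 0 (fun k => u (k, 0) * θ rootT) q : F) else 0 := by
  rw [star_sModel, column_sum]
  split_ifs with hp
  · subst hp
    cases q using Fin.cases with
    | zero =>
      refine Finset.sum_eq_zero fun b _ => ?_
      rw [column_unit, if_neg (by simp [Fin.succ_ne_zero])]
    | succ k =>
      rw [Finset.sum_eq_single k (fun b _ hb => by simp [column_unit, hb]) (by simp)]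
      simp [column_unit]
  · exact Finset.sum_eq_zero fun b _ => by simp [column_unit, Ne.symm hp]

end Intertwine

/-- The elements killed from the left by the kernel of the projection to the model. -/
def ann (x : Fin (n + 1) → F) (s : F) : Submodule ℂ F where
  carrier := {a | ∀ g ∈ graph x s, g.1 = 0 → g.2 * a = 0}
  add_mem' := fun ha hb g hg hg0 => by rw [mul_add, ha g hg hg0, hb g hg hg0, add_zero]
  zero_mem' := fun g _ _ => mul_zero _
  smul_mem' := fun r a ha g hg hg0 => by rw [mul_smul_comm, ha g hg hg0, smul_zero]

theorem ann_closed : IsClosed (ann x s : Set F) := by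
  show IsClosed {a : F | ∀ g ∈ graph x s, g.1 = 0 → g.2 * a = 0}
  simp only [Set.ofPred_forall]
  exact isClosed_iInter fun g => isClosed_iInter fun _ => isClosed_iInter fun _ =>
    isClosed_eq (continuous_const.mul continuous_id) continuous_const

theorem ann_right {a : F} (ha : a ∈ ann x s) (z : F) : a * z ∈ ann x s := by
  intro g hg hg0
  rw [← mul_assoc, ha g hg hg0, zero_mul]

/-- The second components of the graph algebra. -/
def InGraph (x : Fin (n + 1) → F) (s a : F) : Prop := ∃ g ∈ graph x s, g.2 = a

theorem inGraph_x (i : Fin (n + 1)) : InGraph x s (x i) :=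
  ⟨(xModel i, x i), gens_subset (Or.inl ⟨i, rfl⟩), rfl⟩

theorem inGraph_s : InGraph x s s := ⟨(sModel, s), gens_subset (Or.inr rfl), rfl⟩

theorem inGraph_one : InGraph x s (1 : F) := ⟨1, one_mem _, rfl⟩

theorem InGraph.mul {a b : F} (ha : InGraph x s a) (hb : InGraph x s b) :
    InGraph x s (a * b) := by
  obtain ⟨g, hg, rfl⟩ := ha
  obtain ⟨k, hk, rfl⟩ := hb
  exact ⟨g * k, mul_mem hg hk, rfl⟩

theorem InGraph.sub {a b : F} (ha : InGraph x s a) (hb : InGraph x s b) :
    InGraph x s (a - b) := by
  obtain ⟨g, hg, rfl⟩ := ha
  obtain ⟨k, hk, rfl⟩ := hb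
  exact ⟨g - k, sub_mem hg hk, rfl⟩

theorem InGraph.star {a : F} (ha : InGraph x s a) : InGraph x s (star a) := by
  obtain ⟨g, hg, rfl⟩ := ha
  exact ⟨_, star_mem hg, rfl⟩

theorem ann_left {a b : F} (ha : InGraph x s a) (hb : b ∈ ann x s) : a * b ∈ ann x s := by
  obtain ⟨k, hk, rfl⟩ := ha
  intro g hg hg0
  rw [← mul_assoc]
  exact hb (g * k) (mul_mem hg hk) (by simp [hg0])

/-- If `a * star a` is annihilated then so is `a`. -/
theorem ann_of_mul_star {a : F} (ha : a * star a ∈ ann x s) : a ∈ ann x s := by
  intro g hg hg0
  rw [← CStarRing.mul_star_self_eq_zero_iff, star_mul]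
  calc g.2 * a * (star a * star g.2) = g.2 * (a * star a) * star g.2 := by noncomm_ring
    _ = 0 := by rw [ha g hg hg0, zero_mul]

theorem ann_star {a : F} (hag : InGraph x s a) (ha : a ∈ ann x s) : star a ∈ ann x s :=
  ann_of_mul_star (by rw [star_star]; exact ann_left hag.star ha)

/-- Evaluation at a point, as scalars in `F`. -/
noncomputable def evalScalar (F : Type u) [CStarAlgebra F] (t : I) : C(I, ℂ) →⋆ₐ[ℂ] F :=
  (StarAlgHom.ofId ℂ F).comp (ContinuousMap.evalStarAlgHom ℂ ℂ t)

theorem evalScalar_apply (t : I) (f : C(I, ℂ)) :
    evalScalar F t f = algebraMap ℂ F (f t) := rfl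

theorem evalScalar_continuous (t : I) : Continuous (evalScalar F t) :=
  (continuous_algebraMap ℂ F).comp (continuous_eval_const t)

/-- The interior intertwining vectors. -/
noncomputable def interior (x : Fin (n + 1) → F) (s : F) (j : Idx n) : F :=
  Fin.cases (star (x j.1) * x 0 * (star s * s * calc01 s rootT))
    (fun k => star (x j.1) * (s * (star (x k) * x 0 * (star s * s)))) j.2

/-- The endpoint vectors at `t = 1`. -/
def endOne (x : Fin (n + 1) → F) (s : F) (j : Idx n) : F :=
  Fin.cases (if j.1 = 0 then star s * s else 0)
    (fun k => if k = 0 then star (x j.1) * (s * (star s * s)) else 0) j.2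

/-- The endpoint vectors at `t = 0`. -/
def endZero (x : Fin (n + 1) → F) (s : F) (j : Idx n) : F :=
  Fin.cases (star (x j.1) * (x 0 * x 0 - s * star s)) (fun _ => 0) j.2

variable [PartialOrder F] [StarOrderedRing F] (h : Rel x s)
include h

theorem interior_gen {g : C(I, Fib n) × F} (hg : g ∈ gens x s ∪ star (gens x s)) (j : Idx n) :
    g.2 * interior x s j - column (calc01 s) (interior x s) g.1 j ∈ (⊥ : Submodule ℂ F) := by
  rw [Submodule.mem_bot, sub_eq_zero]
  obtain ⟨p, q⟩ := j
  have cS : ∀ a, Commute (calc01 s rootS) (x a) := fun a => h.calc01_commute (h.comm_x a) _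
  have cT : ∀ a, Commute (calc01 s rootT) (star (x a) * x 0) := fun a =>
    h.calc01_commute ((h.comm_star_x a).mul_right (h.comm_x 0)) _
  have cSd : Commute (calc01 s rootS) (star s * s * calc01 s rootT) :=
    (h.calc01_commute (Commute.refl _) _).mul_right
      ((Commute.all rootS rootT).map (calc01 s))
  have hS2 : x 0 * x 0 * (star s * s * calc01 s rootT) =
      x 0 * (star s * s * calc01 s rootT) * calc01 s rootS := by
    rw [h.x0_x0, (cS 0).eq, mul_assoc, cSd.eq, ← mul_assoc]
  rcases gens_cases hg with ⟨i, rfl | rfl⟩ | rfl | rfl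
  · rw [column_xModel]
    cases q using Fin.cases with
    | zero =>
      simp only [interior, Fin.cases_zero, wgt, if_true]
      rw [← mul_assoc (x i), ← mul_assoc (x i), h.row_mul]
      by_cases hp : p = i
      · rw [if_pos hp, if_pos hp.symm, h.x0_star]
        conv_lhs => rw [mul_assoc (x 0 * x 0) (x 0),
          mul_assoc (x 0) (x 0) (x 0 * _), ← mul_assoc (x 0) (x 0) (star s * s * _), hS2]
        simp only [mul_assoc]
      · rw [if_neg hp, if_neg (Ne.symm hp), zero_mul, zero_mul]
    | succ k =>
      simp only [interior, Fin.cases_succ, wgt, Fin.succ_ne_zero, if_false, map_one, mul_one]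
      rw [← mul_assoc (x i), h.row_mul]
      by_cases hp : p = i
      · rw [if_pos hp, if_pos hp.symm, h.x0_star, mul_assoc (x 0) (x 0), ← mul_assoc (x 0) s,
          h.x0_s, ← mul_assoc (x 0) s, h.x0_s]
      · rw [if_neg hp, if_neg (Ne.symm hp), zero_mul]
  · rw [column_star_xModel]
    by_cases hp : p = 0
    · subst hp
      rw [if_pos rfl]
      cases q using Fin.cases with
      | zero =>
        simp only [interior, Fin.cases_zero, wgt, if_true, h.x0_star]
        rw [hS2]
        simp only [mul_assoc]
      | succ k =>
        simp only [interior, Fin.cases_succ, wgt, Fin.succ_ne_zero, if_false, map_one, mul_one]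
        rw [h.x0_star, ← mul_assoc (x 0), h.x0_s]
    · rw [if_neg hp]
      cases q using Fin.cases <;>
        simp only [interior, Fin.cases_zero, Fin.cases_succ, ← mul_assoc,
          h.star_x_mul_star hp, zero_mul]
  · rw [column_sModel]
    cases q using Fin.cases with
    | zero =>
      simp only [interior, Fin.cases_zero, Fin.cases_succ, if_true, h.x0_star]
      rw [← mul_assoc (x 0) s, h.x0_s]
      simp only [mul_assoc]
    | succ k =>
      simp only [interior, Fin.cases_succ, Fin.succ_ne_zero, if_false]
      rw [← mul_assoc s, ← mul_assoc (s * star (x p)), h.s_star_x_s, zero_mul]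
  · rw [column_star_sModel]
    cases q using Fin.cases with
    | zero =>
      simp only [interior, Fin.cases_zero, ite_self]
      rw [← mul_assoc (star s), ← mul_assoc (star s), h.star_s_star_x]
      split_ifs
      · rw [← h.x0_star, h.star_s_star_x, if_pos rfl, ← mul_assoc, h.star_s_defect, zero_mul]
      · simp
    | succ k =>
      simp only [interior, Fin.cases_succ, Fin.cases_zero]
      rw [← mul_assoc (star s), h.star_s_star_x]
      split_ifs
      · have c1 : Commute (star s * s) (star (x k) * x 0) :=
          (h.comm_star_x k).mul_right (h.comm_x 0)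
        rw [← mul_assoc (star s) s, ← mul_assoc (star s * s), c1.eq,
          mul_assoc (star (x k) * x 0), mul_assoc (star (x k) * x 0) _ (calc01 s rootT),
          mul_assoc (star s * s) (calc01 s rootT), h.calc01_rootT_sq]
      · simp

theorem comm_d_one_sub : Commute (star s * s) (1 - star s * s) :=
  (Commute.one_right _).sub_right (Commute.refl _)

theorem ann_interior : star s * s * (1 - star s * s) ∈ ann x s := by
  intro g hg hg0
  have hint : ∀ j, g.2 * interior x s j = 0 := fun j => by
    have h1 := intertwine (calc01 s) (interior x s) (N := ⊥)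
      (isClosed_singleton (x := (0 : F)))
      (fun a ha z => by simp [(Submodule.mem_bot ℂ).1 ha])
      (fun b _ a ha => by simp [(Submodule.mem_bot ℂ).1 ha])
      h.calc01_continuous (fun a ha => interior_gen h ha) hg j
    rw [Submodule.mem_bot, sub_eq_zero] at h1
    rw [h1, hg0, column_zero]
  set d := star s * s with hd
  have ds : star d = d := by rw [hd, star_mul, star_star]
  set K := d * calc01 s rootT with hK
  have KK : K * star K = d * d * d := by
    rw [hK, star_mul, h.calc01_star star_rootT, ds, ← mul_assoc, mul_assoc d (calc01 s rootT),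
      h.calc01_rootT_sq]
  have e : ∀ p : Fin (n + 1), interior x s (p, 0) * star (interior x s (p, 0)) =
      (1 - d) * (star (x p) * x p) * (d * d * d) := by
    intro p
    have c : Commute (d * d * d) (x 0 * x p) := by
      have c1 : Commute d (x 0 * x p) := (h.comm_x 0).mul_right (h.comm_x p)
      exact (c1.mul_left c1).mul_left c1
    have c2 : Commute (1 - d) (star (x p)) := (Commute.one_left _).sub_left (h.comm_star_x p)
    simp only [interior, Fin.cases_zero]
    rw [← hd, ← hK, star_mul _ K, star_mul (star (x p)), star_star, h.x0_star]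
    calc star (x p) * x 0 * K * (star K * (x 0 * x p))
        = star (x p) * x 0 * (K * star K * (x 0 * x p)) := by simp only [mul_assoc]
      _ = star (x p) * (x 0 * x 0 * x p) * (d * d * d) := by
          rw [KK, c.eq]; simp only [mul_assoc]
      _ = star (x p) * ((1 - d) * x p) * (d * d * d) := by
          rw [sub_mul, one_mul, h.defect_x, sub_mul, one_mul, sub_sub_cancel]
      _ = _ := by rw [← mul_assoc (star (x p)), ← c2.eq, mul_assoc (1 - d)]
  have hsum : ∑ i, star (x i) * x i = 1 - d := by rw [hd, h.defect, sub_sub_cancel]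
  have h2 : g.2 * ((1 - d) * (1 - d) * (d * d * d)) = 0 := by
    have h3 : (1 - d) * (1 - d) * (d * d * d) = ∑ p, interior x s (p, 0) * star (interior x s (p, 0)) := by
      simp only [e, ← Finset.sum_mul, ← Finset.mul_sum, hsum]
    rw [h3, Finset.mul_sum]
    exact Finset.sum_eq_zero fun p _ => by rw [← mul_assoc, hint, zero_mul]
  -- two square roots
  have h4 : g.2 * (d * d * (1 - d)) = 0 := by
    rw [← CStarRing.mul_star_self_eq_zero_iff, star_mul]
    have : d * d * (1 - d) * star (d * d * (1 - d)) = (1 - d) * (1 - d) * (d * d * d) * d := by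
      simp only [star_mul, star_sub, star_one, ds]; noncomm_ring
    calc g.2 * (d * d * (1 - d)) * (star (d * d * (1 - d)) * star g.2)
        = g.2 * (d * d * (1 - d) * star (d * d * (1 - d))) * star g.2 := by noncomm_ring
      _ = 0 := by rw [this, ← mul_assoc g.2, h2, zero_mul, zero_mul]
  rw [← CStarRing.mul_star_self_eq_zero_iff, star_mul]
  have : d * (1 - d) * star (d * (1 - d)) = d * d * (1 - d) * (1 - d) := by
    simp only [star_mul, star_sub, star_one, ds]; noncomm_ring
  calc g.2 * (d * (1 - d)) * (star (d * (1 - d)) * star g.2)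
      = g.2 * (d * (1 - d) * star (d * (1 - d))) * star g.2 := by noncomm_ring
    _ = 0 := by rw [this, ← mul_assoc g.2, h4, zero_mul, zero_mul]

theorem inGraph_defect : InGraph x s (star s * s) := inGraph_s.star.mul inGraph_s

theorem ann_defect_sq : star s * s * (star s * s) - star s * s ∈ ann x s := by
  rw [show star s * s * (star s * s) - star s * s = -(star s * s * (1 - star s * s)) by
    noncomm_ring]
  exact neg_mem (ann_interior h)

theorem ann_x_defect (i : Fin (n + 1)) :
    x i * (star s * s) ∈ ann x s ∧ star (x i) * (star s * s) ∈ ann x s := by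
  set d := star s * s with hd
  have ds : star d = d := by rw [hd, star_mul, star_star]
  have hp : x 0 * x 0 * d ∈ ann x s := by
    refine ann_of_mul_star ?_
    have c : Commute d (x 0 * x 0) := (h.comm_x 0).mul_right (h.comm_x 0)
    have e : x 0 * x 0 * d * star (x 0 * x 0 * d) = d * (1 - d) * (x 0 * x 0 * d) := by
      have e0 : x 0 * x 0 * x 0 = (1 - d) * x 0 := by
        rw [sub_mul 1 d, one_mul, hd, h.defect_x, sub_mul, one_mul, sub_sub_cancel]
      have es : star (x 0 * x 0 * d) = x 0 * x 0 * d := by
        rw [star_mul (x 0 * x 0) d, star_mul (x 0), h.x0_star, ds, c.eq]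
      calc x 0 * x 0 * d * star (x 0 * x 0 * d) = d * (x 0 * x 0 * x 0) * (x 0 * d) := by
            rw [es]
            nth_rewrite 1 [← c.eq]
            simp only [mul_assoc]
        _ = _ := by rw [e0]; simp only [mul_assoc]
    rw [e]
    exact ann_right (ann_interior h) _
  have h1 : ∀ i, x i * d ∈ ann x s := fun i => by
    refine ann_of_mul_star ?_
    have c : Commute (d * d) (star (x i)) := (h.comm_star_x i).mul_left (h.comm_star_x i)
    rw [star_mul, ds, mul_assoc, ← mul_assoc d, c.eq, ← mul_assoc, h.row i, ← mul_assoc]
    exact ann_right hp _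
  refine ⟨h1 i, ?_⟩
  have := ann_star ((inGraph_x i).mul (inGraph_defect h)) (h1 i)
  rwa [star_mul, ds, (h.comm_star_x i).eq] at this

theorem ann_s_sub :
    s * (1 - star s * s) ∈ ann x s ∧ (1 - star s * s) * star s ∈ ann x s := by
  set d := star s * s with hd
  have ds : star d = d := by rw [hd, star_mul, star_star]
  have h1 : (1 - d) * star s ∈ ann x s := by
    refine ann_of_mul_star ?_
    rw [star_mul, star_star, star_sub, star_one, ds, mul_assoc, ← mul_assoc (star s), ← hd,
      ← mul_assoc, ← (comm_d_one_sub h).eq]
    exact ann_right (ann_interior h) _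
  refine ⟨?_, h1⟩
  have := ann_star ((inGraph_one.sub (inGraph_defect h)).mul inGraph_s.star) h1
  rwa [star_mul, star_star, star_sub, star_one, ds] at this

theorem ann_x0_w : x 0 * (x 0 * x 0 - s * star s) - (x 0 * x 0 - s * star s) ∈ ann x s := by
  rw [show x 0 * (x 0 * x 0 - s * star s) - (x 0 * x 0 - s * star s)
      = x 0 * (x 0 * x 0) - x 0 * x 0 by rw [mul_sub, ← mul_assoc _ s, h.x0_s]; abel]
  set a := x 0 * (x 0 * x 0) - x 0 * x 0 with ha
  have has : star a = a := by simp [ha, star_mul, h.x0_star, mul_assoc]
  intro g hg hg0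
  have e : a * (1 + x 0) = -(x 0 * (x 0 * (star s * s))) := by
    have e0 : x 0 * (x 0 * x 0) = (1 - star s * s) * x 0 := by
      rw [sub_mul 1 (star s * s), one_mul, h.defect_x, sub_mul, one_mul, sub_sub_cancel, mul_assoc]
    have c : Commute (star s * s) (x 0) := h.comm_x 0
    have : a * (1 + x 0) = x 0 * (x 0 * (x 0 * x 0)) - x 0 * x 0 := by rw [ha]; noncomm_ring
    rw [this, e0, sub_mul 1 (star s * s), one_mul, c.eq]
    noncomm_ring
  have q : g.2 * (a * (1 + x 0)) = 0 := by
    rw [e, mul_neg, neg_eq_zero]
    exact ann_left (inGraph_x 0) (ann_x_defect h 0).1 g hg hg0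
  have q2 : star (star (g.2 * a)) * (1 + x 0) * star (g.2 * a) = 0 := by
    rw [star_star, mul_assoc g.2 a, q, zero_mul]
  have q3 := eq_zero_of_quad zero_le_one h.pos q2
  rw [mul_one, star_star] at q3
  exact (CStarRing.mul_star_self_eq_zero_iff _).1 q3

theorem endOne_gen {g : C(I, Fib n) × F} (hg : g ∈ gens x s ∪ star (gens x s)) (j : Idx n) :
    g.2 * endOne x s j - column (evalScalar F 1) (endOne x s) g.1 j ∈ ann x s := by
  obtain ⟨p, q⟩ := j
  have hT : evalScalar F 1 rootT = 1 := by simp [evalScalar_apply, rootT]
  have hS : evalScalar F 1 rootS = 0 := by simp [evalScalar_apply, rootS]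
  have hwz : evalScalar F 1 (wgt (0 : Fin (n + 2))) = 0 := by simp [wgt, hS]
  have hws : ∀ k : Fin (n + 1), evalScalar F 1 (wgt k.succ) = 1 := fun k => by
    simp [wgt, Fin.succ_ne_zero]
  rcases gens_cases hg with ⟨i, rfl | rfl⟩ | rfl | rfl
  · rw [column_xModel]
    cases q using Fin.cases with
    | zero =>
      simp only [endOne, Fin.cases_zero, hwz, mul_zero, ite_self, sub_zero]
      split_ifs
      · exact (ann_x_defect h i).1
      · rw [mul_zero]; exact zero_mem _
    | succ k =>
      convert zero_mem (ann x s) using 1
      simp only [endOne, Fin.cases_succ, hws, mul_one]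
      by_cases hk : k = 0
      · simp only [hk, if_true]
        rw [← mul_assoc (x i), h.row_mul]
        by_cases hp : p = i
        · rw [if_pos hp, if_pos hp.symm, h.x0_star, mul_assoc (x 0) (x 0), ← mul_assoc (x 0) s,
            h.x0_s, ← mul_assoc (x 0) s, h.x0_s, sub_self]
        · rw [if_neg hp, if_neg (Ne.symm hp), zero_mul, sub_zero]
      · simp [hk]
  · rw [column_star_xModel]
    cases q using Fin.cases with
    | zero =>
      simp only [endOne, Fin.cases_zero, hwz, mul_zero, ite_self, sub_zero]
      split_ifs
      · exact (ann_x_defect h i).2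
      · rw [mul_zero]; exact zero_mem _
    | succ k =>
      convert zero_mem (ann x s) using 1
      simp only [endOne, Fin.cases_succ, hws, mul_one]
      by_cases hk : k = 0
      · simp only [hk, if_true]
        by_cases hp : p = 0
        · subst hp
          rw [if_pos rfl, h.x0_star, ← mul_assoc (x 0), h.x0_s, sub_self]
        · rw [if_neg hp, ← mul_assoc, h.star_x_mul_star hp, zero_mul, sub_zero]
      · simp [hk]
  · rw [column_sModel]
    convert zero_mem (ann x s) using 1
    cases q using Fin.cases with
    | zero =>
      simp only [endOne, Fin.cases_zero, Fin.cases_succ, if_true, hT, mul_one]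
      split_ifs
      · rw [h.x0_star, ← mul_assoc (x 0), h.x0_s, sub_self]
      · simp
    | succ k =>
      simp only [endOne, Fin.cases_succ, Fin.succ_ne_zero, if_false, sub_zero]
      split_ifs
      · rw [← mul_assoc s, ← mul_assoc (s * star (x p)), h.s_star_x_s, zero_mul]
      · simp
  · rw [column_star_sModel]
    cases q using Fin.cases with
    | zero =>
      convert zero_mem (ann x s) using 1
      simp only [endOne, Fin.cases_zero, ite_self, sub_zero]
      split_ifs
      · exact h.star_s_defect
      · simp
    | succ k =>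
      simp only [endOne, Fin.cases_succ, Fin.cases_zero, hT, mul_one]
      by_cases hk : k = 0
      · simp only [hk, if_true]
        rw [← mul_assoc (star s), h.star_s_star_x]
        by_cases hp : p = 0
        · rw [if_pos hp, if_pos hp, ← mul_assoc (star s) s]
          exact ann_defect_sq h
        · rw [if_neg hp, if_neg hp, zero_mul, sub_zero]
          exact zero_mem _
      · simp only [hk, if_false, mul_zero, ite_self, sub_zero]
        exact zero_mem _

theorem endZero_gen {g : C(I, Fib n) × F} (hg : g ∈ gens x s ∪ star (gens x s)) (j : Idx n) :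
    g.2 * endZero x s j - column (evalScalar F 0) (endZero x s) g.1 j ∈ ann x s := by
  obtain ⟨p, q⟩ := j
  set W := x 0 * x 0 - s * star s with hW
  have hT : evalScalar F 0 rootT = 0 := by simp [evalScalar_apply, rootT]
  have hw0 : evalScalar F 0 (wgt (0 : Fin (n + 2))) = 1 := by simp [wgt, evalScalar_apply, rootS]
  cases q using Fin.cases with
  | succ k =>
    convert zero_mem (ann x s) using 1
    rcases gens_cases hg with ⟨i, rfl | rfl⟩ | rfl | rfl <;>
      simp [column_xModel, column_star_xModel, column_sModel, column_star_sModel, endZero, hT,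
        Fin.succ_ne_zero]
  | zero =>
    rcases gens_cases hg with ⟨i, rfl | rfl⟩ | rfl | rfl
    · rw [column_xModel]
      simp only [endZero, Fin.cases_zero, hw0, mul_one, ← hW]
      rw [← mul_assoc (x i), h.row_mul]
      by_cases hp : p = i
      · rw [if_pos hp, if_pos hp.symm, h.x0_star, mul_assoc, ← mul_sub]
        exact ann_left (inGraph_x 0) (ann_x0_w h)
      · rw [if_neg hp, if_neg (Ne.symm hp), zero_mul, sub_zero]
        exact zero_mem _
    · rw [column_star_xModel]
      simp only [endZero, Fin.cases_zero, hw0, mul_one, ← hW]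
      by_cases hp : p = 0
      · subst hp
        rw [if_pos rfl, h.x0_star, ← mul_sub]
        exact ann_left (inGraph_x i).star (ann_x0_w h)
      · rw [if_neg hp, ← mul_assoc, h.star_x_mul_star hp, zero_mul, sub_zero]
        exact zero_mem _
    · rw [column_sModel]
      simp only [endZero, Fin.cases_zero, Fin.cases_succ, hT, mul_zero, ite_self, sub_zero, ← hW]
      have c : Commute (star s * s) (star (x p) * (x 0)) :=
        (h.comm_star_x p).mul_right (h.comm_x 0)
      have e : s * (star (x p) * x 0) = s * (1 - star s * s) * (star (x p) * x 0)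
          + s * (star (x p) * (x 0 * (star s * s))) := by
        rw [← mul_assoc (star (x p)) (x 0), ← c.eq]; noncomm_ring
      have h1 : s * (star (x p) * x 0) ∈ ann x s := by
        rw [e]
        exact add_mem (ann_right (ann_s_sub h).1 _)
          (ann_left inGraph_s (ann_left (inGraph_x p).star (ann_x_defect h 0).1))
      rw [show s * (star (x p) * W) = s * (star (x p) * x 0) * x 0
          - s * star (x p) * s * star s by rw [hW]; noncomm_ring, h.s_star_x_s, zero_mul, sub_zero]
      exact ann_right h1 _
    · rw [column_star_sModel]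
      simp only [endZero, Fin.cases_zero, ite_self, sub_zero, ← hW]
      rw [← mul_assoc, h.star_s_star_x]
      split_ifs
      · rw [show star s * W = star s * x 0 * x 0 - star s * s * star s by rw [hW]; noncomm_ring]
        have e : star s * x 0 = star s := by
          have := congrArg star h.x0_s
          rwa [star_mul, h.x0_star] at this
        rw [e, e, show star s - star s * s * star s = (1 - star s * s) * star s by noncomm_ring]
        exact (ann_s_sub h).2
      · rw [zero_mul]; exact zero_mem _

/-- The projection of the graph algebra to the model is injective. -/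
theorem graph_snd_eq_zero {g : C(I, Fib n) × F} (hg : g ∈ graph x s) (hg0 : g.1 = 0) : g.2 = 0 := by
  have hend : ∀ (t : I) (u : Idx n → F),
      (∀ a ∈ gens x s ∪ star (gens x s), ∀ j,
        a.2 * u j - column (evalScalar F t) u a.1 j ∈ ann x s) →
      ∀ j z, g.2 * (u j * z) ∈ ann x s := by
    intro t u hu j z
    have h1 := intertwine (evalScalar F t) u ann_closed (fun a ha z => ann_right ha z)
      (fun b hb a ha => ann_left ⟨b, StarSubalgebra.le_topologicalClosure _ hb, rfl⟩ ha)
      (evalScalar_continuous t) hu hg j
    rw [← mul_assoc]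
    refine ann_right ?_ z
    rwa [hg0, column_zero, sub_zero] at h1
  have hg2 : InGraph x s g.2 := ⟨g, hg, rfl⟩
  set d := star s * s with hd
  set W := x 0 * x 0 - s * star s with hW
  have hA : ∀ i, star (x i) * (s * d) * (star (star (x i) * (s * d))) -
      star (x i) * (s * star s) * x i ∈ ann x s := by
    intro i
    have ds : star d = d := by rw [hd, star_mul, star_star]
    rw [show star (x i) * (s * d) * (star (star (x i) * (s * d))) -
        star (x i) * (s * star s) * x i
        = -(star (x i) * (s * (1 - d) * ((1 + d) * star s * x i))) by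
      simp only [star_mul, star_star, ds]; noncomm_ring]
    exact neg_mem (ann_left (inGraph_x i).star (ann_right (ann_s_sub h).1 _))
  have hB : ∀ i, star (x i) * x i - star (x i) * (x 0 * x 0) * x i ∈ ann x s := by
    intro i
    rw [show star (x i) * x i - star (x i) * (x 0 * x 0) * x i
        = star (x i) * ((1 - x 0 * x 0) * x i) by noncomm_ring, ← h.defect_x, ← hd, ← mul_assoc]
    exact ann_right (ann_x_defect h i).2 _
  have hE : (1 : F) = d * d + ∑ i, star (x i) * (s * d) * (star (star (x i) * (s * d)))
      + ∑ i, star (x i) * W * x i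
      + (-(d * d - d) - ∑ i, (star (x i) * (s * d) * (star (star (x i) * (s * d))) -
          star (x i) * (s * star s) * x i) +
        ∑ i, (star (x i) * x i - star (x i) * (x 0 * x 0) * x i)) := by
    have h1 : d + ∑ i, star (x i) * x i = 1 := by rw [hd, h.defect, sub_add_cancel]
    have h2 : ∀ i, star (x i) * W * x i =
        star (x i) * (x 0 * x 0) * x i - star (x i) * (s * star s) * x i := fun i => by
      rw [hW, mul_sub, sub_mul]
    simp only [h2, Finset.sum_sub_distrib]
    rw [← h1]
    abel
  have h0 : g.2 ∈ ann x s := by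
    rw [← mul_one g.2, hE, mul_add, mul_add, mul_add, Finset.mul_sum, Finset.mul_sum]
    refine add_mem (add_mem (add_mem ?_ (sum_mem fun i _ => ?_)) (sum_mem fun i _ => ?_))
      (ann_left hg2 (add_mem (sub_mem (neg_mem (ann_defect_sq h)) (sum_mem fun i _ => hA i))
        (sum_mem fun i _ => hB i)))
    · simpa [endOne] using hend 1 _ (fun a ha => endOne_gen h ha) (0, 0) d
    · have := hend 1 _ (fun a ha => endOne_gen h ha) (i, (0 : Fin (n + 1)).succ)
        (star (star (x i) * (s * d)))
      simp only [endOne, Fin.cases_succ, if_true, ← hd] at this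
      exact this
    · simpa [endZero, ← hW, mul_assoc] using
        hend 0 _ (fun a ha => endZero_gen h ha) (i, 0) (x i)
  rw [← CStarRing.star_mul_self_eq_zero_iff]
  exact h0 _ (star_mem hg) (by simp [hg0])

end Vale.Agent.P101.DropN.Hom
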