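import Vale.Agent.P101.DropN.Hom.ZDrop
import Vale.Agent.P101.DropN.Hom.Kernel
import Vale.Agent.P101.DropN.Hom.Gen

/-!
P101: universality of Z(n+1,n+2): elements with the relations give a unital *-homomorphism.
-/

namespace Vale.Agent.P101.DropN.Hom

open scoped Matrix Matrix.Norms.L2Operator Kronecker unitInterval

universe u

/-- Universality of Z(n+1,n+2). -/
theorem exists_starAlgHom {F : Type u} [CStarAlgebra F] {n : ℕ} {x : Fin (n + 1) → F} {s : F}
    (hx : DropNRel x s) : Nonempty (ZDrop n →⋆ₐ[ℂ] F) := by
  letI : PartialOrder F := CStarAlgebra.spectralOrder F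
  haveI : StarOrderedRing F := CStarAlgebra.spectralOrderedRing F
  have h : Rel x s := by
    obtain ⟨⟨c, hc⟩, -, h2, h3, h4, h5⟩ := hx
    exact ⟨by rw [hc]; exact star_mul_self_nonneg c, h2, h3, h4, h5⟩
  have hcl : IsClosed (graph x s : Set (C(I, Fib n) × F)) :=
    StarSubalgebra.isClosed_topologicalClosure _
  let := StarSubalgebra.cstarAlgebra (graph x s) (h_closed := hcl)
  let π : graph x s →⋆ₐ[ℂ] C(I, Fib n) := (StarAlgHom.fst ℂ _ _).comp (graph x s).subtype
  have hinj : Function.Injective π := by
    intro a b hab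
    have e : π (a - b) = 0 := by rw [map_sub, hab, sub_self]
    have e2 := graph_snd_eq_zero h (a - b).2 e
    exact sub_eq_zero.1 (Subtype.ext (Prod.ext e e2))
  have hiso : Isometry π := NonUnitalStarAlgHom.isometry π hinj
  have hmem : ∀ f : ZDrop n, path * (f : C(I, Fib n)) * star path ∈ π.range := by
    rintro ⟨f, ⟨a, ha⟩, ⟨b, hb⟩⟩
    refine mem_of_twisted π.range ?_ (fun i => ?_) ?_ _ a b ?_ ?_
    · show IsClosed (Set.range π)
      exact hiso.isClosedEmbedding.isClosed_range
    · exact ⟨⟨(xModel i, x i), gens_subset (Or.inl ⟨i, rfl⟩)⟩, rfl⟩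
    · exact ⟨⟨(sModel, s), gens_subset (Or.inr rfl)⟩, rfl⟩
    · simp [path_zero, ha]
    · simp only [ContinuousMap.mul_apply, ContinuousMap.star_apply, path_one, star_flipMat,
        conj_flipMat, hb]
  have hmem' : ∀ f : ZDrop n, ∃ g, π g = path * (f : C(I, Fib n)) * star path := hmem
  choose k hk using hmem'
  have hk' : ∀ (f : ZDrop n) g, π g = path * (f : C(I, Fib n)) * star path → g = k f :=
    fun f g hg => hinj (hg.trans (hk f).symm)
  exact ⟨{
    toFun := fun f => (k f : C(I, Fib n) × F).2
    map_one' := by
      rw [← hk' 1 1 (by rw [map_one, OneMemClass.coe_one, mul_one, path_mul_star])]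
      rfl
    map_mul' := fun f g => by
      rw [← hk' (f * g) (k f * k g) (by
        rw [map_mul, hk, hk, MulMemClass.coe_mul]
        calc path * f.1 * star path * (path * g.1 * star path)
            = path * f.1 * (star path * path) * g.1 * star path := by noncomm_ring
          _ = _ := by rw [star_path_mul]; noncomm_ring)]
      rfl
    map_zero' := by
      rw [← hk' 0 0 (by rw [map_zero, ZeroMemClass.coe_zero, mul_zero, zero_mul])]
      rfl
    map_add' := fun f g => by
      rw [← hk' (f + g) (k f + k g) (by
        rw [map_add, hk, hk, AddMemClass.coe_add, mul_add, add_mul])]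
      rfl
    commutes' := fun r => by
      rw [← hk' (algebraMap ℂ _ r) (algebraMap ℂ _ r) (by
        rw [AlgHomClass.commutes]
        show _ = path * algebraMap ℂ C(I, Fib n) r * star path
        rw [← Algebra.commutes, mul_assoc, path_mul_star, mul_one])]
      rfl
    map_star' := fun f => by
      rw [← hk' (star f) (star (k f)) (by
        rw [map_star, hk, StarMemClass.coe_star]
        simp [star_mul, mul_assoc])]
      rfl }⟩

end Vale.Agent.P101.DropN.Hom
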