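import Vale.Agent.P101.DropN.Hom.ZPair

/-!
P101: the dimension drop algebras Z(n+1,n+2).
-/

namespace Vale.Agent.P101.DropN

open scoped unitInterval

/-- `Z(n+1,n+2)`. -/
noncomputable abbrev ZDrop (n : ℕ) :
    StarSubalgebra ℂ C(I, Matrix (Fin (n + 1) × Fin (n + 2)) (Fin (n + 1) × Fin (n + 2)) ℂ) :=
  ZPair (n + 1) (n + 2)

end Vale.Agent.P101.DropN
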