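import Mathlib

/-!
P101: the dimension drop algebras Z(n+1,n+2), as star subalgebras of C([0,1], M (n+1) ⊗ M (n+2)).
-/

namespace Vale.Agent.P101.DropN

open scoped Matrix Kronecker unitInterval

/-- `Z(p,q) = {f : [0,1] → M p ⊗ M q continuous | f 0 ∈ M p ⊗ 1, f 1 ∈ 1 ⊗ M q}`,
with pointwise operations. -/
noncomputable def ZPair (p q : ℕ) :
    StarSubalgebra ℂ C(I, Matrix (Fin p × Fin q) (Fin p × Fin q) ℂ) where
  carrier := {f | (∃ a : Matrix (Fin p) (Fin p) ℂ,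
      f 0 = a ⊗ₖ (1 : Matrix (Fin q) (Fin q) ℂ)) ∧
    ∃ b : Matrix (Fin q) (Fin q) ℂ,
      f 1 = (1 : Matrix (Fin p) (Fin p) ℂ) ⊗ₖ b}
  mul_mem' := by
    rintro f g ⟨⟨a, ha⟩, ⟨b, hb⟩⟩ ⟨⟨c, hc⟩, ⟨e, he⟩⟩
    refine ⟨⟨a * c, ?_⟩, ⟨b * e, ?_⟩⟩
    · rw [ContinuousMap.mul_apply, ha, hc, ← Matrix.mul_kronecker_mul, one_mul]
    · rw [ContinuousMap.mul_apply, hb, he, ← Matrix.mul_kronecker_mul, one_mul]
  add_mem' := by
    rintro f g ⟨⟨a, ha⟩, ⟨b, hb⟩⟩ ⟨⟨c, hc⟩, ⟨e, he⟩⟩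
    refine ⟨⟨a + c, ?_⟩, ⟨b + e, ?_⟩⟩
    · rw [ContinuousMap.add_apply, ha, hc, Matrix.add_kronecker]
    · rw [ContinuousMap.add_apply, hb, he, Matrix.kronecker_add]
  algebraMap_mem' := by
    intro r
    refine ⟨⟨r • 1, ?_⟩, ⟨r • 1, ?_⟩⟩
    · rw [Matrix.smul_kronecker, Matrix.one_kronecker_one, Algebra.algebraMap_eq_smul_one]
      rfl
    · rw [Matrix.kronecker_smul, Matrix.one_kronecker_one, Algebra.algebraMap_eq_smul_one]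
      rfl
  star_mem' := by
    rintro f ⟨⟨a, ha⟩, ⟨b, hb⟩⟩
    refine ⟨⟨aᴴ, ?_⟩, ⟨bᴴ, ?_⟩⟩
    · rw [ContinuousMap.star_apply, ha, Matrix.star_eq_conjTranspose,
        Matrix.conjTranspose_kronecker, Matrix.conjTranspose_one]
    · rw [ContinuousMap.star_apply, hb, Matrix.star_eq_conjTranspose,
        Matrix.conjTranspose_kronecker, Matrix.conjTranspose_one]

end Vale.Agent.P101.DropN
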