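import Vale.Agent.P101.DropN.Hom.Rel

/-!
P101: the model of Z(n+1,n+2) in C([0,1], M ((n+1)(n+2))). Indices `(p, q)`; `q = 0` is the defect
block.
-/

namespace Vale.Agent.P101.DropN.Hom

open scoped Matrix Matrix.Norms.L2Operator unitInterval
open Vale.Agent.P101.DimDrop (coord rootT rootS rootT_mul_self rootS_mul_self star_rootT star_rootS)

/-- The index type of the fibres. -/
abbrev Idx (n : ℕ) := Fin (n + 1) × Fin (n + 2)

/-- The fibre algebra. -/
abbrev Fib (n : ℕ) := Matrix (Idx n) (Idx n) ℂ

variable {n : ℕ}

/-- A function placed in one matrix entry. -/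
noncomputable def unit (a b : Idx n) (c : C(I, ℂ)) : C(I, Fib n) :=
  ⟨fun t => Matrix.single a b (c t), by
    refine continuous_matrix fun i j => ?_
    by_cases hij : a = i ∧ b = j
    · simp only [Matrix.single_apply, if_pos hij]
      fun_prop
    · simp only [Matrix.single_apply, if_neg hij]
      fun_prop⟩

@[simp] lemma unit_apply (a b : Idx n) (c : C(I, ℂ)) (t : I) :
    unit a b c t = Matrix.single a b (c t) := rfl

lemma star_unit (a b : Idx n) (c : C(I, ℂ)) : star (unit a b c) = unit b a (star c) := by
  ext t : 1
  simp [Matrix.star_eq_conjTranspose, Matrix.conjTranspose_single]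

lemma unit_mul_unit (a b b' e : Idx n) (c c' : C(I, ℂ)) :
    unit a b c * unit b' e c' = if b = b' then unit a e (c * c') else 0 := by
  ext t : 1
  by_cases hb : b = b' <;> simp [hb]

lemma unit_add (a b : Idx n) (c c' : C(I, ℂ)) : unit a b (c + c') = unit a b c + unit a b c' := by
  ext t : 1
  simp [Matrix.single_add]

/-- A matrix entry of a continuous field, as a function. -/
noncomputable def entry (i j : Idx n) (f : C(I, Fib n)) : C(I, ℂ) :=
  ⟨fun t => f t i j, by fun_prop⟩

@[simp] lemma entry_apply (i j : Idx n) (f : C(I, Fib n)) (t : I) : entry i j f t = f t i j := rfl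

lemma entry_continuous (i j : Idx n) : Continuous (entry i j) := by
  have h : entry i j = ContinuousMap.comp (⟨fun m : Fib n => m i j, by fun_prop⟩ : C(Fib n, ℂ)) := by
    funext f
    ext t
    rfl
  rw [h]
  exact ContinuousMap.continuous_postcomp _

lemma entry_mul (i j : Idx n) (f g : C(I, Fib n)) :
    entry i j (f * g) = ∑ k, entry i k f * entry k j g := by
  ext t
  simp [Matrix.mul_apply]

lemma entry_algebraMap (i j : Idx n) (r : ℂ) :
    entry i j (algebraMap ℂ C(I, Fib n) r) = if i = j then algebraMap ℂ C(I, ℂ) r else 0 := by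
  ext t
  simp only [entry_apply, Algebra.algebraMap_eq_smul_one, ContinuousMap.smul_apply,
    ContinuousMap.one_apply, Matrix.smul_apply, Matrix.one_apply]
  split_ifs <;> simp

section Column

universe u

variable {F : Type u} [CStarAlgebra F] (θ : C(I, ℂ) →⋆ₐ[ℂ] F) (u : Idx n → F)

/-- The expected image of `u j` under an element with model component `f`. -/
noncomputable def column (f : C(I, Fib n)) (j : Idx n) : F := ∑ i, u i * θ (entry i j f)

lemma column_add (f g : C(I, Fib n)) (j : Idx n) :
    column θ u (f + g) j = column θ u f j + column θ u g j := by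
  have : ∀ i, entry i j (f + g) = entry i j f + entry i j g := fun i => by ext t; simp
  simp [column, this, mul_add, Finset.sum_add_distrib]

lemma column_zero (j : Idx n) : column θ u 0 j = 0 := by
  refine Finset.sum_eq_zero fun i _ => ?_
  rw [show entry i j (0 : C(I, Fib n)) = 0 by ext t; simp, map_zero, mul_zero]

lemma column_unit (a b : Idx n) (c : C(I, ℂ)) (j : Idx n) :
    column θ u (unit a b c) j = if b = j then u a * θ c else 0 := by
  have e : ∀ i, entry i j (unit a b c) = if a = i ∧ b = j then c else 0 := fun i => by
    ext t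
    simp only [entry_apply, unit_apply, Matrix.single_apply]
    split_ifs <;> simp
  unfold column
  by_cases hb : b = j
  · rw [if_pos hb, Finset.sum_eq_single a (fun i _ hi => by simp [e, Ne.symm hi]) (by simp)]
    rw [e, if_pos ⟨rfl, hb⟩]
  · rw [if_neg hb]
    exact Finset.sum_eq_zero fun i _ => by simp [e, hb]

lemma column_sum {ι : Type*} [Fintype ι] (f : ι → C(I, Fib n)) (j : Idx n) :
    column θ u (∑ a, f a) j = ∑ a, column θ u (f a) j := by
  classical
  induction (Finset.univ : Finset ι) using Finset.induction_on with
  | empty => simp [column_zero]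
  | insert a S ha ih => rw [Finset.sum_insert ha, Finset.sum_insert ha, column_add, ih]

end Column

/-- The weight of the row. -/
noncomputable def wgt (q : Fin (n + 2)) : C(I, ℂ) := if q = 0 then rootS else 1

lemma star_wgt (q : Fin (n + 2)) : star (wgt q) = wgt q := by
  unfold wgt; split_ifs <;> simp [star_rootS]

/-- The model row. -/
noncomputable def xModel (i : Fin (n + 1)) : C(I, Fib n) := ∑ q, unit (0, q) (i, q) (wgt q)

/-- The model defect carrier. -/
noncomputable def sModel : C(I, Fib n) := ∑ p : Fin (n + 1), unit (0, p.succ) (p, 0) rootT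

lemma star_xModel (i : Fin (n + 1)) :
    star (xModel (n := n) i) = ∑ q, unit (i, q) (0, q) (wgt q) := by
  simp [xModel, star_sum, star_unit, star_wgt]

lemma star_sModel : star (sModel (n := n)) = ∑ p : Fin (n + 1), unit (p, 0) (0, p.succ) rootT := by
  simp [sModel, star_sum, star_unit, star_rootT]

/-- The transposition of the two ways of indexing a fibre at `t = 1`. -/
def flipFun (i : Idx n) : Idx n := Fin.cases (i.1, 0) (fun k => (k, i.1.succ)) i.2

lemma flipFun_flipFun (i : Idx n) : flipFun (flipFun i) = i := by
  obtain ⟨p, q⟩ := i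
  cases q using Fin.cases <;> simp [flipFun]

end Vale.Agent.P101.DropN.Hom
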