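import Vale.Agent.P101.DropN.Hom.Model
import Vale.Agent.P101.DimDrop.Path

/-!
P101: central functions, and a unitary path from the identity to the transposition of the two ways
of indexing a fibre at `t = 1`.
-/

namespace Vale.Agent.P101.DropN.Hom

open scoped Matrix Matrix.Norms.L2Operator Kronecker unitInterval
open Vale.Agent.P101.DimDrop (coord phase phase_mul_star)

variable {n : ℕ}

/-- Scalar functions as central elements of the field algebra. -/
noncomputable def scal : C(I, ℂ) →⋆ₐ[ℂ] C(I, Fib n) :=
  ContinuousMap.compStarAlgHom I (StarAlgHom.ofId ℂ (Fib n)) (continuous_algebraMap ℂ (Fib n))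

lemma scal_apply (c : C(I, ℂ)) (t : I) : (scal c : C(I, Fib n)) t = algebraMap ℂ (Fib n) (c t) :=
  rfl

lemma scal_comm (c : C(I, ℂ)) (f : C(I, Fib n)) : scal c * f = f * scal c := by
  ext t : 1
  simp [scal_apply, Algebra.commutes]

lemma scal_continuous : Continuous (scal (n := n)) := ContinuousMap.continuous_postcomp _

lemma scal_mul_unit (i j : Idx n) (c h : C(I, ℂ)) : scal c * unit i j h = unit i j (c * h) := by
  ext t : 1
  simp [scal_apply, ← Algebra.smul_def, Matrix.smul_single]

/-- The transposition as a permutation. -/
def flipIdx : Equiv.Perm (Idx n) := ⟨flipFun, flipFun, flipFun_flipFun, flipFun_flipFun⟩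

@[simp] lemma flipIdx_flipIdx (i : Idx n) : flipIdx (flipIdx i) = i := flipFun_flipFun i

/-- The symmetric unitary of the transposition. -/
noncomputable def flipMat : Fib n := flipIdx.toPEquiv.toMatrix

lemma flipMat_sq : (flipMat (n := n)) * flipMat = 1 := by
  rw [flipMat, PEquiv.toMatrix_toPEquiv_mul]
  ext i j
  simp only [Matrix.submatrix_apply, id_eq, PEquiv.toMatrix_apply, Equiv.toPEquiv_apply,
    Option.mem_some_iff, flipIdx_flipIdx, Matrix.one_apply]

lemma star_flipMat : star (flipMat (n := n)) = flipMat := by
  rw [flipMat, Matrix.star_eq_conjTranspose]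
  ext i j
  have h1 : flipIdx j = i ↔ flipIdx i = j := by
    constructor <;> intro h <;> rw [← h] <;> simp
  simp only [Matrix.conjTranspose_apply, PEquiv.toMatrix_apply, Equiv.toPEquiv_apply,
    Option.mem_some_iff, h1]
  split_ifs <;> simp

lemma conj_flipMat (X : Fib n) : flipMat * X * flipMat = X.submatrix flipIdx flipIdx := by
  rw [flipMat, PEquiv.toMatrix_toPEquiv_mul, PEquiv.mul_toMatrix_toPEquiv]
  ext i j
  simp [flipIdx]

/-- The projection onto the antisymmetric vectors. -/
noncomputable def halfProj : Fib n := (2⁻¹ : ℂ) • (1 - flipMat)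

lemma halfProj_sq : (halfProj (n := n)) * halfProj = halfProj := by
  simp only [halfProj, Matrix.smul_mul, Matrix.mul_smul, sub_mul, mul_sub, one_mul, mul_one,
    flipMat_sq]
  module

lemma star_halfProj : star (halfProj (n := n)) = halfProj := by
  rw [halfProj, star_smul, star_sub, star_one, star_flipMat]
  simp

/-- The unitary path. -/
noncomputable def path : C(I, Fib n) :=
  1 + scal (phase.comp ⟨unitInterval.symm, unitInterval.continuous_symm⟩ - 1) *
    ContinuousMap.const I halfProj

lemma path_prod (a b : C(I, ℂ)) (hab : a + b + a * b = 0) :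
    (1 + scal a * ContinuousMap.const I (halfProj (n := n))) *
      (1 + scal b * ContinuousMap.const I halfProj) = 1 := by
  set P := ContinuousMap.const I (halfProj (n := n)) with hP
  have h : P * P = P := by
    ext t : 1
    simp [hP, halfProj_sq]
  have e : scal a * P * (scal b * P) = scal (a * b) * P := by
    rw [mul_assoc (scal a), ← mul_assoc P, ← scal_comm b P, mul_assoc (scal b), h, map_mul,
      mul_assoc]
  rw [add_mul, one_mul, mul_add, mul_one, e, add_assoc, ← add_mul, ← add_mul, ← map_add,
    ← map_add, show b + (a + a * b) = 0 by rw [← hab]; ring, map_zero, zero_mul, add_zero]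

lemma star_path : star (path (n := n)) =
    1 + scal (star (phase.comp ⟨unitInterval.symm, unitInterval.continuous_symm⟩) - 1) *
      ContinuousMap.const I halfProj := by
  have h : star (ContinuousMap.const I (halfProj (n := n))) = ContinuousMap.const I halfProj := by
    ext t : 1
    simp [star_halfProj]
  rw [path, star_add, star_one, star_mul, h, ← map_star, star_sub, star_one, scal_comm]

lemma phase_comp_mul_star (e : C(I, I)) : phase.comp e * star (phase.comp e) = 1 := by
  ext t
  exact DFunLike.congr_fun phase_mul_star (e t)

lemma star_path_mul : star (path (n := n)) * path = 1 := by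
  rw [star_path, path]
  have h := phase_comp_mul_star ⟨unitInterval.symm, unitInterval.continuous_symm⟩
  exact path_prod _ _ (by linear_combination h)

lemma path_mul_star : path * star (path (n := n)) = 1 := by
  rw [star_path, path]
  have h := phase_comp_mul_star ⟨unitInterval.symm, unitInterval.continuous_symm⟩
  exact path_prod _ _ (by linear_combination h)

lemma path_zero : (path (n := n)) 0 = 1 := by
  have h : phase 1 = 1 := by simp [phase]
  simp [path, scal_apply, h]

lemma path_one : (path (n := n)) 1 = flipMat := by
  have h : phase 0 = -1 := by simp [phase, Complex.exp_pi_mul_I]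
  have h2 : (path (n := n)) 1 = 1 + (-2 : ℂ) • halfProj := by
    simp [path, scal_apply, h, Algebra.smul_def]
    norm_num [map_ofNat]
  rw [h2, halfProj]
  module

end Vale.Agent.P101.DropN.Hom
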