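import Vale.Agent.P101.DropN.Defs
import Vale.Agent.P101.DimDrop.Calc

/-!
P101: consequences of the relations of Z(n+1,n+2) in a C*-algebra, and the functional calculus of
the defect `t* t`.
-/

namespace Vale.Agent.P101.DropN.Hom

open scoped unitInterval
open Vale.Agent.P101.DimDrop (coord rootT rootS rootT_mul_self rootS_mul_self)

universe u

/-- The relations with a positive corner and the defect spelled out, in an ordered algebra. -/
structure Rel {F : Type u} [CStarAlgebra F] [PartialOrder F] [StarOrderedRing F] {n : ℕ}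
    (x : Fin (n + 1) → F) (s : F) : Prop where
  pos : 0 ≤ x 0
  row : ∀ i, x i * star (x i) = x 0 * x 0
  orth : ∀ i j, i ≠ j → star (x i) * x i * (star (x j) * x j) = 0
  defect : star s * s = 1 - ∑ i, star (x i) * x i
  top : star (x 0) * x 0 * s = s

variable {F : Type u} [CStarAlgebra F] [PartialOrder F] [StarOrderedRing F] {n : ℕ}
  {x : Fin (n + 1) → F} {s : F}

/-- An element squeezed to zero. -/
theorem eq_zero_of_quad {a b v : F} (ha : 0 ≤ a) (hb : 0 ≤ b)
    (h : star v * (a + b) * v = 0) : star v * a * v = 0 := by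
  refine le_antisymm ?_ (star_left_conjugate_nonneg ha v)
  rw [← h]
  exact star_left_conjugate_le_conjugate (le_add_of_nonneg_right hb) v

/-- A nonnegative element killing a vector weakly kills it. -/
theorem mul_eq_zero_of_quad {a v : F} (ha : 0 ≤ a) (h : star v * a * v = 0) : a * v = 0 := by
  obtain ⟨c, rfl⟩ := CStarAlgebra.nonneg_iff_eq_star_mul_self.1 ha
  have : c * v = 0 := by
    rw [← CStarRing.star_mul_self_eq_zero_iff, star_mul]
    rw [← h]
    simp only [mul_assoc]
  rw [mul_assoc, this, mul_zero]

/-- Functional calculus of the defect. -/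
noncomputable def calc01 (s : F) : C(I, ℂ) →⋆ₐ[ℂ] F :=
  (cfcHom (R := ℂ) (IsSelfAdjoint.star_mul_self s).isStarNormal).comp
    (ContinuousMap.compStarAlgHom' ℂ ℂ
      (⟨fun z => Set.projIcc 0 1 zero_le_one (z : ℂ).re, by fun_prop⟩ :
        C(spectrum ℂ (star s * s), I)))

namespace Rel

variable (h : Rel x s)
include h

theorem x0_star : star (x 0) = x 0 := (IsSelfAdjoint.of_nonneg h.pos).star_eq

theorem row_ne {i j : Fin (n + 1)} (hij : i ≠ j) : x i * star (x j) = 0 := by
  rw [← CStarRing.star_mul_self_eq_zero_iff]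
  have h1 : star (x i * star (x j)) * (x i * star (x j)) * star (x i * star (x j)) *
      (x i * star (x j)) = x j * (star (x i) * x i * (star (x j) * x j)) * (star (x i) * x i) *
        star (x j) := by
    simp only [star_mul, star_star, mul_assoc]
  rw [h.orth i j hij, mul_zero, zero_mul, zero_mul] at h1
  rw [← CStarRing.star_mul_self_eq_zero_iff, star_mul (star _) _, star_star]
  simpa [mul_assoc] using h1

theorem row_mul (i j : Fin (n + 1)) : x i * star (x j) = if i = j then x 0 * x 0 else 0 := by
  split_ifs with hij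
  · subst hij; exact h.row i
  · exact h.row_ne hij

theorem x_mul_x {i : Fin (n + 1)} (hi : i ≠ 0) (a : Fin (n + 1)) : x i * x a = 0 := by
  rw [← CStarRing.mul_star_self_eq_zero_iff, star_mul, mul_assoc, ← mul_assoc (x a), h.row a,
    ← mul_assoc, ← mul_assoc]
  nth_rewrite 1 [← h.x0_star]
  rw [h.row_ne hi, zero_mul, zero_mul]

theorem star_x_mul_star {a i : Fin (n + 1)} (hi : i ≠ 0) : star (x a) * star (x i) = 0 := by
  rw [← star_mul, h.x_mul_x hi, star_zero]

theorem defect_x (a : Fin (n + 1)) :
    star s * s * x a = (1 - x 0 * x 0) * x a := by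
  rw [h.defect, sub_mul, sub_mul, one_mul, Finset.sum_mul, Finset.sum_eq_single 0
    (fun i _ hi => by rw [mul_assoc, h.x_mul_x hi, mul_zero])
    (fun hh => absurd (Finset.mem_univ _) hh), h.x0_star]

theorem x_defect (a : Fin (n + 1)) :
    x a * (star s * s) = (1 - x 0 * x 0) * x a := by
  rw [h.defect, mul_sub, sub_mul, mul_one, one_mul, Finset.mul_sum, Finset.sum_eq_single a
    (fun i _ hi => by rw [← mul_assoc, h.row_ne (Ne.symm hi), zero_mul])
    (fun hh => absurd (Finset.mem_univ _) hh), ← mul_assoc, h.row a]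

theorem comm_x (a : Fin (n + 1)) : Commute (star s * s) (x a) :=
  (h.defect_x a).trans (h.x_defect a).symm

theorem comm_star_x (a : Fin (n + 1)) : Commute (star s * s) (star (x a)) := by
  have := (h.comm_x a).star_star
  rwa [star_mul, star_star] at this

theorem x0_s : x 0 * s = s := by
  have h1 : (1 + x 0) * (x 0 * s - s) = 0 := by
    have h2 := h.top
    rw [h.x0_star] at h2
    rw [add_mul, one_mul, mul_sub, ← mul_assoc, h2]; abel
  have h3 : star (x 0 * s - s) * (1 + x 0) * (x 0 * s - s) = 0 := by
    rw [mul_assoc, h1, mul_zero]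
  have h4 := eq_zero_of_quad zero_le_one h.pos h3
  rw [mul_one] at h4
  exact sub_eq_zero.1 ((CStarRing.star_mul_self_eq_zero_iff _).1 h4)

theorem x_s {i : Fin (n + 1)} (hi : i ≠ 0) : x i * s = 0 := by
  rw [← h.x0_s, ← mul_assoc, h.x_mul_x hi, zero_mul]

theorem x_mul_s (i : Fin (n + 1)) : x i * s = if i = 0 then s else 0 := by
  split_ifs with hi
  · subst hi; exact h.x0_s
  · exact h.x_s hi

theorem star_s_star_x (i : Fin (n + 1)) :
    star s * star (x i) = if i = 0 then star s else 0 := by
  rw [← star_mul, h.x_mul_s]; split_ifs <;> simp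

theorem defect_s : star s * s * s = 0 := by
  rw [h.defect, sub_mul, one_mul, Finset.sum_mul, Finset.sum_eq_single 0
    (fun i _ hi => by rw [mul_assoc, h.x_s hi, mul_zero])
    (fun hh => absurd (Finset.mem_univ _) hh), mul_assoc, h.x0_s, h.x0_star, h.x0_s, sub_self]

theorem star_s_defect : star s * (star s * s) = 0 := by
  have := congrArg star h.defect_s
  simpa [star_mul, mul_assoc] using this

theorem s_star_x_s (b : Fin (n + 1)) : s * star (x b) * s = 0 := by
  rw [← CStarRing.star_mul_self_eq_zero_iff]
  calc star (s * star (x b) * s) * (s * star (x b) * s)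
      = star s * x b * (star s * s * star (x b)) * s := by
        simp only [star_mul, star_star, mul_assoc]
    _ = star s * x b * star (x b) * (star s * s * s) := by
        rw [(h.comm_star_x b).eq]; simp only [mul_assoc]
    _ = 0 := by rw [h.defect_s, mul_zero]

theorem s_s : s * s = 0 := by
  have := h.s_star_x_s 0
  rwa [h.x0_star, mul_assoc, h.x0_s] at this

/-- The defect. -/
theorem defect_nonneg : 0 ≤ star s * s := star_mul_self_nonneg s

theorem defect_le_one : star s * s ≤ 1 := by
  rw [h.defect]
  exact sub_le_self _ (Finset.sum_nonneg fun i _ => star_mul_self_nonneg _)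

theorem spectrum_defect {z : ℂ} (hz : z ∈ spectrum ℂ (star s * s)) :
    z = (z.re : ℂ) ∧ z.re ∈ Set.Icc (0 : ℝ) 1 := by
  have hsa : IsSelfAdjoint (star s * s) := IsSelfAdjoint.star_mul_self s
  have h1 : z = (z.re : ℂ) := hsa.mem_spectrum_eq_re hz
  have h2 : z.re ∈ spectrum ℝ (star s * s) := by
    apply spectrum.of_algebraMap_mem (S := ℂ)
    rw [Complex.coe_algebraMap, ← h1]
    exact hz
  exact ⟨h1, spectrum_nonneg_of_nonneg h.defect_nonneg h2,
    CStarAlgebra.norm_le_one_iff_of_nonneg _ h.defect_nonneg |>.2 h.defect_le_one |>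
      (fun hn => le_trans (le_abs_self _) (by
        have : Nontrivial F := by
          rcases subsingleton_or_nontrivial F with hF | hF
          · simp [spectrum.of_subsingleton] at h2
          · exact hF
        exact le_trans (by simpa using spectrum.norm_le_norm_of_mem h2) hn))⟩

theorem calc01_continuous : Continuous (calc01 s) :=
  (cfcHom_continuous (IsSelfAdjoint.star_mul_self s).isStarNormal).comp
    (ContinuousMap.continuous_precomp _)

theorem calc01_coord : (calc01 s) coord = star s * s := by
  have h1 : ContinuousMap.compStarAlgHom' ℂ ℂ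
      (⟨fun z => Set.projIcc 0 1 zero_le_one (z : ℂ).re, by fun_prop⟩ :
        C(spectrum ℂ (star s * s), I)) coord =
      (ContinuousMap.id ℂ).restrict (spectrum ℂ (star s * s)) := by
    ext z
    have h2 := h.spectrum_defect z.2
    show ((Set.projIcc 0 1 zero_le_one (z : ℂ).re : ℝ) : ℂ) = (z : ℂ)
    rw [Set.projIcc_of_mem zero_le_one h2.2]
    exact h2.1.symm
  unfold Hom.calc01
  rw [StarAlgHom.comp_apply, h1]
  exact cfcHom_id _

theorem calc01_commute {a : F} (ha : Commute (star s * s) a) (f : C(I, ℂ)) :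
    Commute ((calc01 s) f) a :=
  Commute.cfcHom (IsSelfAdjoint.star_mul_self s).isStarNormal ha
    (by rwa [(IsSelfAdjoint.star_mul_self s).star_eq]) _

theorem calc01_star {f : C(I, ℂ)} (hf : star f = f) : star ((calc01 s) f) = (calc01 s) f := by
  rw [← map_star, hf]

theorem calc01_rootS_sq : (calc01 s) rootS * (calc01 s) rootS = 1 - star s * s := by
  rw [← map_mul, rootS_mul_self, map_sub, map_one, h.calc01_coord]

theorem calc01_rootT_sq : (calc01 s) rootT * (calc01 s) rootT = star s * s := by
  rw [← map_mul, rootT_mul_self, h.calc01_coord]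

theorem calc01_rootS_nonneg : 0 ≤ (calc01 s) rootS := by
  let f : C(I, ℂ) := ⟨fun t => ((Real.sqrt (Real.sqrt (1 - (t : ℝ))) : ℝ) : ℂ), by fun_prop⟩
  have hf : star f * f = rootS := by
    ext t
    simp only [ContinuousMap.mul_apply, ContinuousMap.star_apply, rootS, f, ContinuousMap.coe_mk,
      Complex.star_def, Complex.conj_ofReal, ← Complex.ofReal_mul]
    rw [Real.mul_self_sqrt (Real.sqrt_nonneg _)]
  rw [← hf, map_mul, map_star]
  exact star_mul_self_nonneg _

/-- On the corner the square root of the complement of the defect is the row. -/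
theorem x0_x0 : x 0 * x 0 = (calc01 s) rootS * x 0 := by
  set θ := (calc01 s) rootS with hθ
  have cθ : Commute θ (x 0) := h.calc01_commute (h.comm_x 0) _
  have e : x 0 * x 0 * x 0 = θ * θ * x 0 := by
    rw [hθ, h.calc01_rootS_sq, sub_mul, one_mul, h.defect_x, sub_mul, one_mul, sub_sub_cancel]
  set v : F := x 0 * x 0 - θ * x 0 with hv
  have e1 : (x 0 + θ) * v = 0 := by
    have : (x 0 + θ) * v = x 0 * x 0 * x 0 - θ * θ * x 0 + (θ * x 0 - x 0 * θ) * x 0 := by
      rw [hv]; noncomm_ring
    rw [this, e, cθ.eq, sub_self, sub_self, zero_mul, add_zero]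
  have q0 : star v * (x 0 + θ) * v = 0 := by rw [mul_assoc, e1, mul_zero]
  have a1 := mul_eq_zero_of_quad h.pos (eq_zero_of_quad h.pos h.calc01_rootS_nonneg q0)
  have a2 := mul_eq_zero_of_quad h.calc01_rootS_nonneg
    (eq_zero_of_quad h.calc01_rootS_nonneg h.pos (by rwa [add_comm]))
  have hstar : star v = x 0 * (x 0 - θ) := by
    simp only [hv, star_sub, star_mul, h.x0_star, hθ, h.calc01_star DimDrop.star_rootS, mul_sub]
  refine sub_eq_zero.1 ((CStarRing.star_mul_self_eq_zero_iff v).1 ?_)
  rw [hstar, mul_assoc, sub_mul, a1, a2, sub_self, mul_zero]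

end Rel

end Vale.Agent.P101.DropN.Hom
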